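import Vale.Agent.P110.Ultraflat.Fresnel

/-!
P110, module M5: arcs of modulus one with controlled coefficient integrals.

An arc is a continuous function of modulus one on an interval whose coefficient integral is, for
frequencies outside the range of the speed, a difference of two end terms up to a cubic error.
The end terms cancel when arcs are joined.
-/

namespace Vale.Agent.P110.Ultra.Glue

open Complex Set
open Vale.Agent.P110.Ultraflat

noncomputable section

/-- The unit complex number of angle `r`. -/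
def cis (r : ℝ) : ℂ := exp ((r : ℂ) * I)

lemma norm_cis (r : ℝ) : ‖cis r‖ = 1 := norm_exp_ofReal_mul_I r

lemma cis_add (r s : ℝ) : cis (r + s) = cis r * cis s := by
  rw [cis, cis, cis, ← exp_add]; push_cast; ring_nf

lemma cis_zero : cis 0 = 1 := by simp [cis]

lemma continuous_cis : Continuous cis := by unfold cis; fun_prop

/-- The normalising factor of the coefficient integrals. -/
def cN (N : ℕ) : ℂ := ((Real.sqrt N / (2 * Real.pi) : ℝ) : ℂ)

/-- The leading term of an end with value `z`, speed `u` and time `t`. -/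
def lead (N : ℕ) (z : ℂ) (u t k : ℝ) : ℂ :=
  z * cis (-(k * t)) * (Fresnel.w0 / ((Real.sqrt (Real.pi / N) * (N * u - k) : ℝ) : ℂ))

/-- `k` is at distance at least `δ` from the frequencies of the admissible speeds. -/
def Outside (N : ℕ) (τ k δ : ℝ) : Prop :=
  0 < δ ∧ (k + δ ≤ N * (τ / 4) ∨ N * (1 - τ / 4) + δ ≤ k)

/-- An arc on `[a, b]` from value `za` and speed `ua` to value `zb` and speed `ub`,
with coefficient integrals `V`. -/
def Arc (N : ℕ) (τ a b : ℝ) (za zb : ℂ) (ua ub M : ℝ) (V : ℝ → ℂ) : Prop :=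
  a ≤ b ∧
  (∃ f : ℝ → ℂ, ContinuousOn f (Icc a b) ∧ (∀ x, ‖f x‖ = 1) ∧ f a = za ∧ f b = zb ∧
    ∀ k : ℝ, cN N * ∫ x in a..b, f x * cis (-(k * x)) = V k) ∧
  ∀ k δ : ℝ, Outside N τ k δ →
    ‖V k - (lead N zb ub b k - lead N za ua a k)‖ ≤ M * (Real.sqrt N ^ 3 / δ ^ 3)

lemma Arc.nil (N : ℕ) (τ a u : ℝ) {z : ℂ} (hz : ‖z‖ = 1) :
    Arc N τ a a z z u u 0 fun _ => 0 :=
  ⟨le_rfl, ⟨fun _ => z, continuousOn_const, fun _ => hz, rfl, rfl, fun k => by simp⟩,
    fun k δ _ => by simp⟩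

lemma Arc.mono {N : ℕ} {τ a b : ℝ} {za zb : ℂ} {ua ub M M' : ℝ} {V : ℝ → ℂ}
    (h : Arc N τ a b za zb ua ub M V) (hM : M ≤ M') : Arc N τ a b za zb ua ub M' V := by
  refine ⟨h.1, h.2.1, fun k δ ho => (h.2.2 k δ ho).trans ?_⟩
  have := ho.1
  gcongr

/-- Arcs with a common end are joined. -/
lemma Arc.join {N : ℕ} {τ a b c : ℝ} {za zb zc : ℂ} {ua ub uc M M' : ℝ} {V V' : ℝ → ℂ}
    (h : Arc N τ a b za zb ua ub M V) (h' : Arc N τ b c zb zc ub uc M' V') :
    Arc N τ a c za zc ua uc (M + M') fun k => V k + V' k := by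
  obtain ⟨hab, ⟨f, hfc, hfn, hfa, hfb, hfV⟩, hfE⟩ := h
  obtain ⟨hbc, ⟨g, hgc, hgn, hgb, hgc', hgV⟩, hgE⟩ := h'
  refine ⟨hab.trans hbc, ⟨fun x => if x ≤ b then f x else g x, ?_, ?_, ?_, ?_, ?_⟩, ?_⟩
  · rw [← Icc_union_Icc_eq_Icc hab hbc]
    refine ContinuousOn.union_of_isClosed (hfc.congr fun x hx => if_pos hx.2)
      (hgc.congr fun x hx => ?_) isClosed_Icc isClosed_Icc
    show (if x ≤ b then f x else g x) = g x
    split_ifs with hxb
    · rw [le_antisymm hxb hx.1, hfb, hgb]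
    · rfl
  · intro x
    show ‖if x ≤ b then f x else g x‖ = 1
    split_ifs
    · exact hfn x
    · exact hgn x
  · simp [hab, hfa]
  · show (if c ≤ b then f c else g c) = zc
    split_ifs with hcb
    · have hcb' : c = b := le_antisymm hcb hbc
      rw [hcb', hfb, ← hgb, ← hcb', hgc']
    · exact hgc'
  · intro k
    have e1 : EqOn (fun x => (if x ≤ b then f x else g x) * cis (-(k * x)))
        (fun x => f x * cis (-(k * x))) (uIcc a b) := fun x hx => by
      rw [uIcc_of_le hab] at hx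
      simp [hx.2]
    have e2 : EqOn (fun x => (if x ≤ b then f x else g x) * cis (-(k * x)))
        (fun x => g x * cis (-(k * x))) (uIcc b c) := fun x hx => by
      rw [uIcc_of_le hbc] at hx
      show (if x ≤ b then f x else g x) * _ = g x * _
      split_ifs with hxb
      · rw [le_antisymm hxb hx.1, hfb, hgb]
      · rfl
    have hc : Continuous fun x : ℝ => cis (-(k * x)) := continuous_cis.comp (by fun_prop)
    have i1 : IntervalIntegrable (fun x => (if x ≤ b then f x else g x) * cis (-(k * x)))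
        MeasureTheory.volume a b :=
      ((hfc.mul hc.continuousOn).congr fun x hx =>
        e1 (by rwa [uIcc_of_le hab])).intervalIntegrable_of_Icc hab
    have i2 : IntervalIntegrable (fun x => (if x ≤ b then f x else g x) * cis (-(k * x)))
        MeasureTheory.volume b c :=
      ((hgc.mul hc.continuousOn).congr fun x hx =>
        e2 (by rwa [uIcc_of_le hbc])).intervalIntegrable_of_Icc hbc
    rw [← intervalIntegral.integral_add_adjacent_intervals i1 i2,
      intervalIntegral.integral_congr e1, intervalIntegral.integral_congr e2, mul_add, hfV, hgV]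
  · intro k δ ho
    rw [add_mul]
    refine le_trans ?_ (add_le_add (hfE k δ ho) (hgE k δ ho))
    refine le_trans (le_of_eq ?_) (norm_add_le _ _)
    congr 1
    ring

lemma inWeight_nonneg (a b y : ℝ) : 0 ≤ inWeight a b y := by unfold inWeight; positivity

lemma inWeight_le_one (a b y : ℝ) : inWeight a b y ≤ 1 := by
  rw [inWeight, div_le_one (by norm_num : (0 : ℝ) < 2)]
  rcases Real.sign_apply_eq (b - y) with h | h | h <;>
    rcases Real.sign_apply_eq (a - y) with h' | h' | h' <;> rw [h, h'] <;> norm_num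

lemma inWeight_eq_zero {a b y : ℝ} (h : (y < a ∧ y < b) ∨ (a < y ∧ b < y)) :
    inWeight a b y = 0 := by
  rcases h with ⟨ha, hb⟩ | ⟨ha, hb⟩
  · simp [inWeight, Real.sign_of_pos (sub_pos.2 ha), Real.sign_of_pos (sub_pos.2 hb)]
  · simp [inWeight, Real.sign_of_neg (sub_neg.2 ha), Real.sign_of_neg (sub_neg.2 hb)]

lemma norm_statTerm (N : ℕ) (σ u φ k : ℝ) : ‖statTerm N σ u φ k‖ = ampl σ := by
  rw [statTerm, norm_mul, norm_exp_ofReal_mul_I, mul_one, Complex.norm_real, Real.norm_eq_abs,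
    abs_of_nonneg (by unfold ampl; positivity)]

lemma norm_endTerm_le {N : ℕ} (hN : 0 < N) (σ u φ k : ℝ) :
    ‖endTerm N σ u φ k‖ ≤ 2 * ampl σ := by
  rw [endTerm_eq hN, norm_mul, norm_exp_ofReal_mul_I, one_mul, ampl_eq]
  exact Fresnel.norm_edge_le _ _

lemma endTerm_lead {N : ℕ} (hN : 0 < N) {σ : ℝ} (hσ : σ ≠ 0) {u k δ : ℝ} (hδ : 0 < δ)
    (hu : δ ≤ |(N : ℝ) * u - k|) (φ t : ℝ) :
    ‖endTerm N σ u (φ - k * t) k - lead N (cis φ) u t k‖ ≤
      2 * Real.pi * |σ| * (Real.sqrt N ^ 3 / δ ^ 3) := by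
  have hN' : (0 : ℝ) < N := by exact_mod_cast hN
  have hx : (N : ℝ) * u - k ≠ 0 := fun h => by rw [h, abs_zero] at hu; linarith
  have hD : Real.sqrt (Real.pi / N) * (N * u - k) ≠ 0 :=
    mul_ne_zero (by positivity) hx
  have hexp : exp (((φ - k * t : ℝ) : ℂ) * I) = cis φ * cis (-(k * t)) := by
    rw [← cis_add, cis, sub_eq_add_neg]
  rw [endTerm_eq hN, hexp, lead, ← mul_sub, norm_mul, norm_mul, norm_cis, norm_cis, one_mul,
    one_mul]
  refine (Fresnel.edge_asymp hσ hD).trans ?_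
  rw [Fresnel.amp_sq, abs_mul, abs_of_nonneg (Real.sqrt_nonneg _), mul_pow, one_div, mul_inv,
    one_div, inv_inv]
  refine mul_le_mul_of_nonneg_left ?_ (by positivity)
  have hroot : (Real.sqrt N)⁻¹ ≤ Real.sqrt (Real.pi / N) := by
    rw [← Real.sqrt_inv]
    refine Real.sqrt_le_sqrt ?_
    rw [inv_eq_one_div]
    gcongr
    linarith [Real.two_le_pi]
  have hs : 0 < Real.sqrt N := Real.sqrt_pos.2 hN'
  calc (Real.sqrt (Real.pi / N) ^ 3 * |(N : ℝ) * u - k| ^ 3)⁻¹
      ≤ ((Real.sqrt N)⁻¹ ^ 3 * δ ^ 3)⁻¹ := by gcongr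
    _ = Real.sqrt N ^ 3 / δ ^ 3 := by rw [mul_inv, inv_pow, inv_inv, div_eq_mul_inv]

lemma Outside.speed {N : ℕ} {τ k δ u : ℝ} (ho : Outside N τ k δ)
    (hu : u ∈ Icc (τ / 4) (1 - τ / 4)) : δ ≤ |(N : ℝ) * u - k| := by
  have h1 := mul_le_mul_of_nonneg_left hu.1 N.cast_nonneg
  have h2 := mul_le_mul_of_nonneg_left hu.2 N.cast_nonneg
  rcases ho.2 with h | h
  · exact le_trans (by linarith) (le_abs_self _)
  · exact le_trans (by linarith) (neg_le_abs _)

lemma Outside.inWeight {N : ℕ} {τ k δ u u' : ℝ} (ho : Outside N τ k δ)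
    (hu : u ∈ Icc (τ / 4) (1 - τ / 4)) (hu' : u' ∈ Icc (τ / 4) (1 - τ / 4)) :
    Ultra.inWeight ((N : ℝ) * u) (N * u') k = 0 := by
  have hδ := ho.1
  have h1 := mul_le_mul_of_nonneg_left hu.1 N.cast_nonneg
  have h2 := mul_le_mul_of_nonneg_left hu.2 N.cast_nonneg
  have h3 := mul_le_mul_of_nonneg_left hu'.1 N.cast_nonneg
  have h4 := mul_le_mul_of_nonneg_left hu'.2 N.cast_nonneg
  refine inWeight_eq_zero ?_
  rcases ho.2 with h | h
  · exact Or.inl ⟨by linarith, by linarith⟩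
  · exact Or.inr ⟨by linarith, by linarith⟩

/-- The coefficient integral of a linear piece. -/
def pieceVal (N : ℕ) (a b φ u σ k : ℝ) : ℂ :=
  cN N * ∫ x in a..b,
    exp (((φ + N * (u * (x - a) + σ * (x - a) ^ 2 / 2) - k * x : ℝ) : ℂ) * I)

/-- A linear piece of speed is an arc. -/
theorem piece {N : ℕ} (hN : 0 < N) {τ a b : ℝ} (hab : a < b) {u u' : ℝ}
    (hu : u ∈ Icc (τ / 4) (1 - τ / 4)) (hu' : u' ∈ Icc (τ / 4) (1 - τ / 4)) (hne : u ≠ u')
    (φ : ℝ) :
    Arc N τ a b (cis φ) (cis (φ + N * ((b - a) * (u + u') / 2))) u u'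
      (4 * Real.pi * |(u' - u) / (b - a)|) (pieceVal N a b φ u ((u' - u) / (b - a))) ∧
    ∀ k, ‖pieceVal N a b φ u ((u' - u) / (b - a)) k‖ ≤ 5 * ampl ((u' - u) / (b - a)) := by
  have hL : b - a ≠ 0 := (sub_pos.2 hab).ne'
  set σ := (u' - u) / (b - a) with hσdef
  have hσ : σ ≠ 0 := div_ne_zero (sub_ne_zero.2 hne.symm) hL
  have hend : u + σ * (b - a) = u' := by rw [hσdef, div_mul_cancel₀ _ hL]; ring
  have hph : u * (b - a) + σ * (b - a) ^ 2 / 2 = (b - a) * (u + u') / 2 := by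
    rw [← hend]; ring
  have hval : ∀ k, pieceVal N a b φ u σ k =
      (Ultra.inWeight ((N : ℝ) * u) (N * u') k : ℂ) * statTerm N σ u (φ - k * a) k +
        endTerm N σ u' (φ + N * ((b - a) * (u + u') / 2) - k * b) k -
        endTerm N σ u (φ - k * a) k := by
    intro k
    have h := fresnelStmt.2 N σ u φ a b k hN hσ hab.le
    rw [hend, hph] at h
    exact h
  refine ⟨⟨hab.le, ⟨fun x => cis (φ + N * (u * (x - a) + σ * (x - a) ^ 2 / 2)),
    (continuous_cis.comp (by fun_prop)).continuousOn, fun x => norm_cis _, by simp, by simp [hph],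
    fun k => ?_⟩, fun k δ ho => ?_⟩, fun k => ?_⟩
  · rw [pieceVal]
    congr 1
    refine intervalIntegral.integral_congr fun x _ => ?_
    show cis _ * cis _ = _
    rw [← cis_add, cis, ← sub_eq_add_neg]
  · rw [hval k, ho.inWeight hu hu', Complex.ofReal_zero, zero_mul, zero_add,
      show 4 * Real.pi * |σ| * (Real.sqrt N ^ 3 / δ ^ 3) =
        2 * Real.pi * |σ| * (Real.sqrt N ^ 3 / δ ^ 3) +
          2 * Real.pi * |σ| * (Real.sqrt N ^ 3 / δ ^ 3) by ring]
    refine le_trans (le_trans (le_of_eq ?_) (norm_sub_le _ _))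
      (add_le_add (endTerm_lead hN hσ ho.1 (ho.speed hu') (φ + N * ((b - a) * (u + u') / 2)) b)
        (endTerm_lead hN hσ ho.1 (ho.speed hu) φ a))
    congr 1
    ring
  · rw [hval k]
    refine (norm_sub_le _ _).trans ((add_le_add (norm_add_le _ _) le_rfl).trans ?_)
    have h1 : ‖(Ultra.inWeight ((N : ℝ) * u) (N * u') k : ℂ) *
        statTerm N σ u (φ - k * a) k‖ ≤ ampl σ := by
      rw [norm_mul, norm_statTerm, Complex.norm_real, Real.norm_eq_abs,
        abs_of_nonneg (inWeight_nonneg _ _ _)]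
      exact mul_le_of_le_one_left (by unfold ampl; positivity) (inWeight_le_one _ _ _)
    linarith [norm_endTerm_le hN σ u' (φ + N * ((b - a) * (u + u') / 2) - k * b) k,
      norm_endTerm_le hN σ u (φ - k * a) k]

end

end Vale.Agent.P110.Ultra.Glue
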