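import Vale.Agent.P110.Ultraflat.Glue.Arc

/-!
P110, module M5: a closed arc on `[0, π]` gives a flat polynomial.

The odd extension of the arc has real Fourier coefficients; the two end terms are imaginary at the
integers, so the coefficients outside `[0, N)` have a small sum.
-/

namespace Vale.Agent.P110.Ultra.Glue

open Complex Set
open scoped ComplexConjugate Real
open Vale.Agent.P110.Ultraflat

noncomputable section

lemma lead_re {N : ℕ} {u t k : ℝ} (h : Real.sin (k * t) = 0) : (lead N 1 u t k).re = 0 := by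
  have hw : Fresnel.w0.re = 0 := by simp [Fresnel.w0, Complex.div_re]
  rw [lead, one_mul, Complex.mul_re, Complex.div_ofReal_re, hw, cis, exp_ofReal_mul_I_im,
    Real.sin_neg, h]
  simp

/-- The real coefficient of a closed arc. -/
def xv (V : ℝ → ℂ) (n : ℤ) : ℝ := 2 * (V n).re

lemma xv_tail {N : ℕ} {τ v w M δ : ℝ} {V : ℝ → ℂ} (h : Arc N τ 0 π 1 1 v w M V) (n : ℤ)
    (ho : Outside N τ n δ) : |xv V n| ≤ 2 * (M * (Real.sqrt N ^ 3 / δ ^ 3)) := by
  have h1 := (Complex.abs_re_le_norm _).trans (h.2.2 n δ ho)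
  rw [Complex.sub_re, Complex.sub_re, lead_re (u := w) (Real.sin_int_mul_pi n),
    lead_re (u := v) (by simp), sub_zero, sub_zero] at h1
  rw [xv, abs_mul, abs_two]
  linarith

lemma sum_inv_cube {A : ℝ} (hA : 1 ≤ A) (n : ℕ) :
    ∑ j ∈ Finset.range n, 1 / (A + j) ^ 3 ≤ 2 / A ^ 2 - 2 / (A + n) ^ 2 := by
  induction n with
  | zero => simp
  | succ n ih =>
    rw [Finset.sum_range_succ]
    have ha : 1 ≤ A + n := by linarith [n.cast_nonneg (α := ℝ)]
    have key : ∀ x : ℝ, 1 ≤ x → 1 / x ^ 3 ≤ 2 / x ^ 2 - 2 / (x + 1) ^ 2 := by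
      intro x hx
      have hx0 : 0 < x := by linarith
      rw [div_sub_div _ _ (by positivity) (by positivity), div_le_div_iff₀ (by positivity)
        (by positivity)]
      have : 0 ≤ x ^ 2 * (3 * x ^ 2 - 1) := mul_nonneg (sq_nonneg x) (by nlinarith)
      nlinarith [pow_pos hx0 4, pow_pos hx0 3, pow_pos hx0 2]
    have := key _ ha
    push_cast
    rw [← add_assoc A (n : ℝ) 1]
    linarith

/-- The odd extension. -/
def ext (f : ℝ → ℂ) (t : ℝ) : ℂ := if 0 ≤ t then f t else conj (f (-t))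

lemma ext_neg {f : ℝ → ℂ} (h0 : f 0 = 1) {t : ℝ} (ht : 0 ≤ t) : ext f (-t) = conj (f t) := by
  rcases ht.eq_or_lt with h | h
  · simp [ext, ← h, h0]
  · simp [ext, not_le.2 (neg_lt_zero.2 h)]

lemma ext_continuousOn {f : ℝ → ℂ} (hf : ContinuousOn f (Icc 0 π)) (h0 : f 0 = 1) :
    ContinuousOn (ext f) (Icc (-π) π) := by
  rw [← Icc_union_Icc_eq_Icc (neg_nonpos.2 Real.pi_pos.le) Real.pi_pos.le]
  refine ContinuousOn.union_of_isClosed ?_ (hf.congr fun x hx => if_pos hx.1) isClosed_Icc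
    isClosed_Icc
  have hcont : ContinuousOn (fun x => conj (f (-x))) (Icc (-π) 0) :=
    Complex.continuous_conj.comp_continuousOn (hf.comp continuousOn_neg fun x hx => ⟨by
      linarith [hx.2], by linarith [hx.1]⟩)
  refine hcont.congr fun x hx => ?_
  have := ext_neg h0 (neg_nonneg.2 hx.2)
  rwa [neg_neg] at this

lemma integral_ext {f : ℝ → ℂ} (hf : ContinuousOn f (Icc 0 π)) (h0 : f 0 = 1) (k : ℝ) :
    (∫ x in -π..π, ext f x * cis (-(k * x))) =
      ((2 * (∫ x in (0 : ℝ)..π, f x * cis (-(k * x))).re : ℝ) : ℂ) := by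
  have hπ := Real.pi_pos
  have hc : ContinuousOn (fun x => ext f x * cis (-(k * x))) (Icc (-π) π) :=
    (ext_continuousOn hf h0).mul (continuous_cis.comp (by fun_prop)).continuousOn
  have i1 := (hc.mono (Icc_subset_Icc_right hπ.le)).intervalIntegrable_of_Icc
    (μ := MeasureTheory.volume) (by linarith : -π ≤ 0)
  have i2 := (hc.mono (Icc_subset_Icc_left (neg_nonpos.2 hπ.le))).intervalIntegrable_of_Icc
    (μ := MeasureTheory.volume) hπ.le
  have e1 : (∫ x in -π..0, ext f x * cis (-(k * x))) =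
      conj (∫ x in (0 : ℝ)..π, f x * cis (-(k * x))) := by
    have h := intervalIntegral.integral_comp_neg (f := fun x => ext f x * cis (-(k * x)))
      (a := 0) (b := π)
    rw [neg_zero] at h
    rw [← h, ← intervalIntegral.intervalIntegral_conj]
    refine intervalIntegral.integral_congr fun x hx => ?_
    rw [uIcc_of_le hπ.le] at hx
    show ext f (-x) * cis (-(k * -x)) = conj (f x * cis (-(k * x)))
    rw [map_mul, ext_neg h0 hx.1, cis, cis, ← Complex.exp_conj]
    simp
  have e2 : (∫ x in (0 : ℝ)..π, ext f x * cis (-(k * x))) =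
      ∫ x in (0 : ℝ)..π, f x * cis (-(k * x)) := by
    refine intervalIntegral.integral_congr fun x hx => ?_
    rw [uIcc_of_le hπ.le] at hx
    show ext f x * _ = _
    rw [ext, if_pos hx.1]
  rw [← intervalIntegral.integral_add_adjacent_intervals i1 i2, e1, e2, add_comm,
    Complex.add_conj]

/-- A closed arc with small error gives a flat polynomial. -/
theorem flat_of_arc {N : ℕ} {τ v w M η : ℝ} {V : ℝ → ℂ} (hτ : 0 < τ) (hM : 0 ≤ M)
    (hN : 4 ≤ τ * N) (hN' : 128 * M ≤ η * τ ^ 2 * N) (h : Arc N τ 0 π 1 1 v w M V) (t : ℝ) :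
    |‖lit N (fun k => xv V k) t‖ - Real.sqrt N| ≤ η * Real.sqrt N := by
  obtain ⟨-, ⟨f, hfc, hfn, hf0, hfπ, hfV⟩, -⟩ := id h
  have hπ := Real.pi_pos
  have : Fact (0 < 2 * π) := ⟨Real.two_pi_pos⟩
  have hN0 : (0 : ℝ) < N := by nlinarith
  have hs : 0 < Real.sqrt N := Real.sqrt_pos.2 hN0
  have hend : -π + 2 * π = π := by ring
  have hcont : ContinuousOn (ext f) (Icc (-π) (-π + 2 * π)) := by
    rw [hend]; exact ext_continuousOn hfc hf0
  have hper : ext f (-π) = ext f (-π + 2 * π) := by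
    rw [hend, ext_neg hf0 hπ.le, hfπ, ext, if_pos hπ.le, hfπ, map_one]
  let g : C(AddCircle (2 * π), ℂ) :=
    ⟨AddCircle.liftIco (2 * π) (-π) (ext f), AddCircle.liftIco_continuous hper hcont⟩
  have hgn : ∀ q, ‖g q‖ = 1 := by
    intro q
    show ‖AddCircle.liftIco (2 * π) (-π) (ext f) q‖ = 1
    simp only [AddCircle.liftIco, Function.comp_apply, Set.domRestrict_apply, ext]
    split_ifs
    · exact hfn _
    · rw [RCLike.norm_conj]; exact hfn _
  have hfour : ∀ (n : ℤ) (x : ℝ), fourier n ((x : ℝ) : AddCircle (2 * π)) = cis (n * x) := by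
    intro n x
    rw [fourier_coe_apply, cis]
    congr 1
    have : (π : ℂ) ≠ 0 := by exact_mod_cast hπ.ne'
    push_cast
    field_simp
  have hcoef : ∀ n : ℤ, (Real.sqrt N : ℂ) * fourierCoeff g n = (xv V n : ℂ) := by
    intro n
    show (Real.sqrt N : ℂ) * fourierCoeff (AddCircle.liftIco (2 * π) (-π) (ext f)) n = _
    rw [fourierCoeff_liftIco_eq, fourierCoeffOn_eq_integral]
    have e : ∀ T : ℝ, T = 2 * π → ∀ x : ℝ,
        fourier (-n) ((x : ℝ) : AddCircle T) • ext f x = ext f x * cis (-((n : ℝ) * x)) := by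
      intro T hT x
      subst hT
      rw [hfour, smul_eq_mul, mul_comm]
      push_cast
      rw [neg_mul]
    simp_rw [e (-π + 2 * π - -π) (by ring)]
    rw [hend]
    rw [integral_ext hfc hf0, xv, ← hfV n, cN, Complex.re_ofReal_mul, Complex.real_smul]
    push_cast
    field_simp
    ring
  have hA : 1 ≤ (N : ℝ) * τ / 4 := by linarith
  set A := (N : ℝ) * τ / 4 with hAdef
  set b : ℕ → ℝ := fun j => 2 * M * Real.sqrt N ^ 3 * (1 / (A + j) ^ 3) with hb
  have hb0 : ∀ j, 0 ≤ b j := fun j => by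
    have : 0 ≤ A + j := by positivity
    positivity
  set B := 2 * M * Real.sqrt N ^ 3 * (2 / A ^ 2) with hB
  have hbsum : ∀ n, ∑ j ∈ Finset.range n, b j ≤ B := by
    intro n
    rw [hb, ← Finset.mul_sum]
    refine mul_le_mul_of_nonneg_left ((sum_inv_cube hA n).trans ?_) (by positivity)
    have : 0 ≤ 2 / (A + n) ^ 2 := by positivity
    linarith
  have hbS : Summable b := summable_of_sum_range_le hb0 hbsum
  have hbT : ∑' j, b j ≤ B := Real.tsum_le_of_sum_range_le hb0 hbsum
  have hpos : ∀ j : ℕ, |xv V ((j + N : ℕ) : ℤ)| ≤ b j := by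
    intro j
    refine (xv_tail (δ := A + j) h _ ⟨by positivity, Or.inr ?_⟩).trans_eq ?_
    · push_cast; rw [hAdef]; linarith
    · rw [hb]; ring
  have hneg : ∀ j : ℕ, |xv V (-((j : ℤ) + 1))| ≤ b j := by
    intro j
    refine (xv_tail (δ := A + j) h _ ⟨by positivity, Or.inl ?_⟩).trans_eq ?_
    · push_cast; rw [hAdef]; linarith
    · rw [hb]; ring
  set a : ℤ → ℂ := fun n => (xv V n : ℂ) * cis (n * t) with ha
  have han : ∀ n, ‖a n‖ = |xv V n| := fun n => by
    rw [ha, norm_mul, norm_cis, mul_one, Complex.norm_real, Real.norm_eq_abs]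
  have hp' : Summable fun j : ℕ => a ((j + N : ℕ) : ℤ) :=
    hbS.of_norm_bounded fun j => (han _).trans_le (hpos j)
  have hp : Summable fun j : ℕ => a (j : ℤ) := (summable_nat_add_iff N).1 hp'
  have hn : Summable fun j : ℕ => a (-((j : ℤ) + 1)) :=
    hbS.of_norm_bounded fun j => (han _).trans_le (hneg j)
  have hsum : Summable (fourierCoeff g) := by
    have hx : ∀ n, fourierCoeff g n = (xv V n : ℂ) / (Real.sqrt N : ℂ) := fun n => by
      rw [← hcoef n, mul_div_cancel_left₀ _ (by exact_mod_cast hs.ne')]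
    rw [show fourierCoeff g = fun n => (xv V n : ℂ) / (Real.sqrt N : ℂ) from funext hx]
    refine Summable.div_const (Summable.of_nat_of_neg_add_one ?_ ?_) _
    · exact (summable_nat_add_iff N).1 (hbS.of_norm_bounded fun j => by simpa using hpos j)
    · exact hbS.of_norm_bounded fun j => by simpa using hneg j
  have hval : ∑' n, a n = (Real.sqrt N : ℂ) * g (t : AddCircle (2 * π)) := by
    have hh := ((has_pointwise_sum_fourier_series_of_summable hsum
      (t : AddCircle (2 * π))).mul_left (Real.sqrt N : ℂ)).tsum_eq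
    rw [← hh]
    refine tsum_congr fun n => ?_
    rw [smul_eq_mul, ← mul_assoc, hcoef, hfour, ha]
  rw [tsum_of_nat_of_neg_add_one hp hn, ← hp.sum_add_tsum_nat_add N] at hval
  have hlit : lit N (fun k => xv V k) t = ∑ i ∈ Finset.range N, a (i : ℤ) := by
    unfold lit
    refine Finset.sum_congr rfl fun i _ => ?_
    simp [ha, cis]
  rw [← hlit] at hval
  have hnorm : ‖(Real.sqrt N : ℂ) * g (t : AddCircle (2 * π))‖ = Real.sqrt N := by
    rw [norm_mul, hgn, mul_one, Complex.norm_real, Real.norm_eq_abs,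
      abs_of_nonneg (Real.sqrt_nonneg _)]
  have t1 : ‖∑' j : ℕ, a ((j + N : ℕ) : ℤ)‖ ≤ B :=
    (tsum_of_norm_bounded hbS.hasSum fun j => (han _).trans_le (hpos j)).trans hbT
  have t2 : ‖∑' j : ℕ, a (-((j : ℤ) + 1))‖ ≤ B :=
    (tsum_of_norm_bounded hbS.hasSum fun j => (han _).trans_le (hneg j)).trans hbT
  have hB2 : B + B ≤ η * Real.sqrt N := by
    have e : B + B = 128 * M * Real.sqrt N / (τ ^ 2 * N) := by
      rw [hB, hAdef, pow_succ, Real.sq_sqrt hN0.le]
      field_simp
      ring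
    rw [e, div_le_iff₀ (by positivity)]
    nlinarith [mul_le_mul_of_nonneg_right hN' hs.le]
  rw [← hnorm]
  refine (abs_norm_sub_norm_le _ _).trans ?_
  rw [hnorm]
  refine le_trans ?_ (le_trans (add_le_add t1 t2) hB2)
  refine le_trans (le_of_eq ?_) (norm_add_le _ _)
  rw [← norm_neg]
  congr 1
  rw [← hval]
  ring

end

end Vale.Agent.P110.Ultra.Glue
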